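import Mathlib
import Vale.Agent.P043.T2.Defs

/-! # P043 FIN: the tables (helper31) -/

namespace Vale.Agent.P043.T2.H31

open Finset

abbrev P : Type := ZMod 4 × ZMod 9
abbrev Q : Type := ZMod 25 × ZMod 49

/-- the cell -/
def cP (p : P) : Fin 2 × Fin 3 :=
  (⟨p.1.val % 2, Nat.mod_lt _ (by norm_num)⟩, ⟨p.2.val % 3, Nat.mod_lt _ (by norm_num)⟩)
/-- the layer -/
def cQ (q : Q) : Fin 5 × Fin 7 :=
  (⟨q.1.val % 5, Nat.mod_lt _ (by norm_num)⟩, ⟨q.2.val % 7, Nat.mod_lt _ (by norm_num)⟩)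

def kdL : List (List ℕ) :=
  [[8, 15, 16, 15, 2, 0, 6], [14, 14, 0, 14, 2, 16, 6], [15, 8, 15, 16, 0, 4, 4],
    [13, 9, 14, 10, 7, 14, 11], [16, 16, 12, 9, 1, 15, 8]]
/-- the kind of a layer -/
def kd (L : Fin 5 × Fin 7) : ℕ := (kdL.getD L.1.val []).getD L.2.val 0

def d0 (t e i j : ℕ) : Bool :=
  if t < 14 then (i % 2 == t / 7) &&
    (j % 3 == (if 2 * (e / 3) + i / 2 < t % 7 then (if t / 7 == 0 then 1 else 0) else 2))
  else if t == 14 then false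
  else if t == 15 then (i % 2 == 1) && (j == 0)
  else (i % 2 == 0) && (j == 1)

def d1 (t e i j : ℕ) : Bool :=
  if t < 14 then false
  else if t == 14 then (i % 2 == e / 2) && (j % 3 == e / 2)
  else if t == 15 then (i % 2 == 0) && (j == 3 || j == 6)
  else (i % 2 == 1) && (j == 4 || j == 7)

def x2 (t j : ℕ) : Bool :=
  if t < 14 then true
  else if t == 14 then false
  else if t == 15 then decide (j ≤ 2)
  else decide (1 ≤ j ∧ j ≤ 3)

/-- class 0 cells -/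
def c0 (C : Fin 2 × Fin 3) : Bool := !(C == (0, 0) || C == (1, 1))

/-- sizes, class 0 -/
def k0 (t : ℕ) (C : Fin 2 × Fin 3) : ℕ :=
  if t < 14 then
    (if t / 7 == 0 then (if C == (0, 1) then t else if C == (0, 2) then 6 - t else 0)
      else (if C == (1, 0) then t - 7 else if C == (1, 2) then 13 - t else 0))
  else if t == 14 then 0
  else if t == 15 then (if C == (1, 0) then 2 else 0)
  else (if C == (0, 1) then 2 else 0)

def k1 (t : ℕ) (C : Fin 2 × Fin 3) : ℕ :=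
  if t < 14 then 0
  else if t == 14 then (if C == (0, 0) then 3 else if C == (1, 1) then 3 else 0)
  else if t == 15 then (if C == (0, 0) then 4 else 0)
  else (if C == (1, 1) then 4 else 0)

def kb0 (C : Fin 2 × Fin 3) (f : ℕ) : ℕ :=
  (if C == (0, 1) then [0, 0, 1, 1, 2, 2, 4] else if C == (0, 2) then [0, 0, 1, 1, 2, 2, 4]
    else if C == (1, 0) then [0, 2, 3, 3, 3, 4, 4] else [0, 2, 3, 3, 3, 4, 4]).getD f 0

def lb0 (C : Fin 2 × Fin 3) (f s : ℕ) : ℕ :=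
  ((if C == (0, 1) then [[2,2,4,4,6],[6,6,6,6,6],[4,4,5,5,6],[6,6,6,6,6],[3,3,5,5,5],
      [5,6,6,6,6],[0,0,1,1,4]]
    else if C == (0, 2) then [[4,4,4,4,5],[5,5,5,5,5],[2,2,2,2,2],[2,4,4,4,4],[4,4,4,4,4],
      [4,5,5,6,6],[4,4,4,4,4]]
    else if C == (1, 0) then [[0,1,1,3,3],[0,0,1,2,2],[0,0,0,0,0],[0,1,1,3,3],[3,6,6,6,6],
      [2,2,2,2,2],[3,3,5,5,6]]
    else [[0,0,0,0,0],[1,1,1,1,1],[1,1,1,1,3],[3,3,4,4,4],[4,4,4,6,6],[2,3,3,3,3],
      [6,6,6,6,6]]).getD f []).getD s 0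

def lb1 (f : ℕ) : ℕ := [0, 1, 2, 3, 5].getD f 0

def kb1 (C : Fin 2 × Fin 3) (f s : ℕ) : ℕ :=
  ((if C == (0, 0) then [[1,1,1,2,2,2,2],[0,0,0,0,1,1,1],[2,2,2,2,3,3,3],[0,0,0,0,1,1,1],
      [3,3,3,4,4,4,4]]
    else [[1,1,1,4,4,4,4],[1,1,1,4,4,4,4],[0,0,0,0,3,3,3],[1,1,1,2,2,2,2],
      [1,1,1,1,3,3,3]]).getD f []).getD s 0

def D0 (h : ZMod 9) (L : Fin 5 × Fin 7) : Finset P :=
  univ.filter (fun p => d0 (kd L) (h - p.2).val p.1.val p.2.val = true)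
def D1 (h : ZMod 4) (L : Fin 5 × Fin 7) : Finset P :=
  univ.filter (fun p => d1 (kd L) (h - p.1).val p.1.val p.2.val = true)
def B0 (h : ZMod 49) (C : Fin 2 × Fin 3) : Finset Q :=
  univ.filter (fun q => c0 C = true ∧ q.1.val % 5 = kb0 C ((h - q.2).val / 7) ∧
    q.2.val % 7 = lb0 C ((h - q.2).val / 7) (q.1.val / 5))
def B1 (h : ZMod 25) (C : Fin 2 × Fin 3) : Finset Q :=
  univ.filter (fun q => c0 C = false ∧ q.2.val % 7 = lb1 ((h - q.1).val / 5) ∧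
    q.1.val % 5 = kb1 C ((h - q.1).val / 5) (q.2.val / 7))

theorem kd_lt : ∀ L : Fin 5 × Fin 7, kd L < 17 := by decide +kernel

theorem card_d0 : ∀ t : Fin 17, ∀ h : ZMod 9, ∀ C : Fin 2 × Fin 3,
    (univ.filter (fun p : P => d0 t.val (h - p.2).val p.1.val p.2.val = true ∧ cP p = C)).card =
      k0 t.val C := by decide +kernel

theorem card_d1 : ∀ t : Fin 17, ∀ h : ZMod 4, ∀ C : Fin 2 × Fin 3,
    (univ.filter (fun p : P => d1 t.val (h - p.1).val p.1.val p.2.val = true ∧ cP p = C)).card =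
      k1 t.val C := by decide +kernel

theorem chk_d0 : ∀ t : Fin 17, ∀ e : ZMod 9, ∀ i : ZMod 4, ∀ j : ZMod 9,
    (univ.filter (fun ab : Fin 2 × Fin 3 => d0 t.val e.val (i - ((ab.1 : ℕ) : ZMod 4)).val
      (j - ((ab.2 : ℕ) : ZMod 9)).val = true)).card = if x2 t.val j.val = true then 1 else 0 := by
  decide +kernel

theorem chk_d1 : ∀ t : Fin 17, ∀ e : ZMod 4, ∀ i : ZMod 4, ∀ j : ZMod 9,
    (univ.filter (fun ab : Fin 2 × Fin 3 => d1 t.val e.val (i - ((ab.1 : ℕ) : ZMod 4)).val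
      (j - ((ab.2 : ℕ) : ZMod 9)).val = true)).card = if x2 t.val j.val = true then 0 else 1 := by
  decide +kernel

theorem sub5 : ∀ k : ZMod 25, ∀ v : Fin 5,
    (univ.filter (fun c : Fin 5 => (k - ((c : ℕ) : ZMod 25)).val % 5 = v.val)).card = 1 := by
  decide +kernel

theorem sub7 : ∀ k : ZMod 49, ∀ v : Fin 7,
    (univ.filter (fun c : Fin 7 => (k - ((c : ℕ) : ZMod 49)).val % 7 = v.val)).card = 1 := by
  decide +kernel

theorem mul5 : ∀ k k' : ZMod 25, (univ.filter (fun c : Fin 5 => k - 5 * ((c : ℕ) : ZMod 25) = k')).card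
    = if k'.val % 5 = k.val % 5 then 1 else 0 := by
  decide +kernel

theorem mul7 : ∀ k k' : ZMod 49, (univ.filter (fun c : Fin 7 => k - 7 * ((c : ℕ) : ZMod 49) = k')).card
    = if k'.val % 7 = k.val % 7 then 1 else 0 := by
  decide +kernel

theorem mul2 : ∀ k k' : ZMod 4, (univ.filter (fun c : Fin 2 => k - 2 * ((c : ℕ) : ZMod 4) = k')).card
    = if k'.val % 2 = k.val % 2 then 1 else 0 := by
  decide +kernel

theorem mul3 : ∀ k k' : ZMod 9, (univ.filter (fun c : Fin 3 => k - 3 * ((c : ℕ) : ZMod 9) = k')).card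
    = if k'.val % 3 = k.val % 3 then 1 else 0 := by
  decide +kernel

theorem kb0_lt : ∀ C : Fin 2 × Fin 3, ∀ f : Fin 7, kb0 C f.val < 5 := by decide +kernel
theorem lb0_lt : ∀ C : Fin 2 × Fin 3, ∀ f : Fin 7, ∀ s : Fin 5, lb0 C f.val s.val < 7 := by
  decide +kernel
theorem lb1_lt : ∀ f : Fin 5, lb1 f.val < 7 := by decide +kernel
theorem kb1_lt : ∀ C : Fin 2 × Fin 3, ∀ f : Fin 5, ∀ s : Fin 7, kb1 C f.val s.val < 5 := by
  decide +kernel

/-- inverse coordinate, `Z/49` -/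
def inv49 (h : ZMod 49) (f v : ℕ) : ZMod 49 :=
  h - ((7 * f + (h - (v : ZMod 49)).val % 7 : ℕ) : ZMod 49)
def inv25 (h : ZMod 25) (f v : ℕ) : ZMod 25 :=
  h - ((5 * f + (h - (v : ZMod 25)).val % 5 : ℕ) : ZMod 25)

theorem inv49_left : ∀ h l : ZMod 49, inv49 h ((h - l).val / 7) (l.val % 7) = l := by
  decide +kernel
theorem inv49_right : ∀ h : ZMod 49, ∀ f v : Fin 7,
    (h - inv49 h f.val v.val).val / 7 = f.val ∧ (inv49 h f.val v.val).val % 7 = v.val := by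
  decide +kernel
theorem inv25_left : ∀ h l : ZMod 25, inv25 h ((h - l).val / 5) (l.val % 5) = l := by
  decide +kernel
theorem inv25_right : ∀ h : ZMod 25, ∀ f v : Fin 5,
    (h - inv25 h f.val v.val).val / 5 = f.val ∧ (inv25 h f.val v.val).val % 5 = v.val := by
  decide +kernel

theorem cnt0 : ∀ C : Fin 2 × Fin 3, ∀ L : Fin 5 × Fin 7,
    (univ.filter (fun fs : Fin 7 × Fin 5 => c0 C = true ∧ L.1.val = kb0 C fs.1.val ∧
      L.2.val = lb0 C fs.1.val fs.2.val)).card = k0 (kd L) C := by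
  decide +kernel

theorem cnt1 : ∀ C : Fin 2 × Fin 3, ∀ L : Fin 5 × Fin 7,
    (univ.filter (fun fs : Fin 5 × Fin 7 => c0 C = false ∧ L.2.val = lb1 fs.1.val ∧
      L.1.val = kb1 C fs.1.val fs.2.val)).card = k1 (kd L) C := by
  decide +kernel

end Vale.Agent.P043.T2.H31
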